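import Vale.Agent.P221CY.St
import Vale.Agent.P257CY.Br
import Vale.Agent.P221.St.IntA

/-!
# P221: the compact statement layer agrees with the old one
-/

open CategoryTheory MonoidalCategory

noncomputable section

namespace Vale.Agent.P251CY.F

open Vale.Agent.P251.St Vale.Agent.P251.St.SHCat Vale.Agent.P221

variable {T : SHCat} {S : Susp T} {R : RingSp T} {p : ℕ}

theorem isMonHom_iff {R' : RingSp T} (f : Hom R.obj R'.obj) : IsMonHom f ↔ V.IsRingMap f :=
  ⟨fun h => ⟨h.one_hom, h.mul_hom⟩, fun h => ⟨h.1, h.2⟩⟩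

theorem isBrownPeterson_iff (p : ℕ) (o : Oriented S R) (φ : GHom S p R) :
    IsBrownPeterson p o φ ↔ P257.St.IsBrownPeterson p o.toOld φ.toOld := by
  refine Iff.trans ⟨fun h => ⟨h.typ, fun R' o' φ' h' => ?_⟩,
    fun h => ⟨h.typ, fun R' o' φ' h' => ?_⟩⟩ (V.isBrownPeterson_iff p o φ)
  · exact (existsUnique_congr fun f => and_congr (isMonHom_iff f) Iff.rfl).2 (h.univ R' o' φ' h')
  · exact (existsUnique_congr fun f => and_congr (isMonHom_iff f) Iff.rfl).1 (h.univ R' o' φ' h')

theorem sub_iff (X Y : T.C) : Subsingleton (Hom X Y) ↔ ∀ f : Hom X Y, f = StI.nul X Y :=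
  ⟨fun _ _ => Subsingleton.elim _ _, fun h => ⟨fun f g => (h f).trans (h g).symm⟩⟩

theorem pComplete_iff (p : ℕ) (X : T.C) : PComplete p X ↔ StI.PComplete p X :=
  forall_congr' fun _ => imp_congr Iff.rfl (sub_iff _ _)

theorem isPCompletion_iff (p : ℕ) {X Y : T.C} (c : Hom X Y) :
    IsPCompletion p c ↔ StI.IsPCompletion p c :=
  and_congr (pComplete_iff _ _) (forall_congr' fun _ => imp_congr (pComplete_iff _ _) Iff.rfl)

theorem boundedBelow_iff (X : T.C) : BoundedBelow X ↔ StI.BoundedBelow X :=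
  exists_congr fun _ => forall_congr' fun _ => imp_congr Iff.rfl (sub_iff _ _)

theorem isAct_iff {X : T.C} (a : Hom (ten R.obj X) X) :
    IsAct a ↔ StI.IsAct (R := R.toOld) a := by
  refine and_congr ?_ ?_
  · exact ((Iso.inv_comp_eq (λ_ X)).trans (by rw [Category.comp_id])).symm
  · refine Iff.trans ?_ (Iso.inv_comp_eq (α_ R.obj R.obj X))
    exact Eq.congr_left (Category.assoc _ _ _)

theorem thick_iff (B X : T.C) : Thick B X ↔ StI.ThickOf (fun Y => Y = B) X := by
  constructor
  · intro h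
    induction h with
    | base => exact .base rfl
    | susp k _ ih => exact .susp k ih
    | cof d _ _ ih ih' => exact .cof d ih ih'
    | retract i r e _ ih => exact .retract i r e ih
  · intro h
    induction h with
    | base h => exact h ▸ .base
    | zero h => exact .retract (B := B) (Y := B) 0 0 (Limits.zero_comp.trans h.symm) .base
    | susp k _ ih => exact .susp k ih
    | cof d _ _ ih ih' => exact .cof d ih ih'
    | retract i r e _ ih => exact .retract i r e ih

theorem mulBy_eq {k : ℕ} (x : PiR S R k) :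
    mulBy x = StI.mulBy (S := S) (R := R.toOld) x := by
  simp only [mulBy, StI.mulBy, tenHom, id_tensorHom]

theorem isQuotient_iff (n : ℕ) (x : ∀ j : ℕ, PiR S R (p ^ j - 1)) {C : T.C}
    (a : Hom (ten R.obj C) C) (q : Hom R.obj C) :
    IsQuotient n x a q ↔ StI.IsQuotient (S := S) (R := R.toOld) n x a q := by
  constructor
  · intro h
    refine ⟨(isAct_iff a).1 h.act, h.map, h.surj, fun k u => (h.ker k u).trans ?_⟩
    simp only [mulBy_eq]
  · intro h
    refine ⟨(isAct_iff a).2 h.act, h.map, h.surj, fun k u => (h.ker k u).trans ?_⟩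
    simp only [mulBy_eq]

theorem isStandardForm_iff (S : Susp T) (p n : ℕ) (B : T.C) :
    IsStandardForm S p n B ↔ StI.IsStandardForm S p n B := by
  constructor
  · rintro ⟨P, o, φ, x, C, a, q, c, h1, h2, h3, h4⟩
    exact ⟨P.toOld, o.toOld, φ.toOld, x, C, a, q, c, (isBrownPeterson_iff _ _ _).1 h1, h2,
      (isQuotient_iff _ _ _ _).1 h3, (isPCompletion_iff _ _).1 h4⟩
  · rintro ⟨P, o, φ, x, C, a, q, c, h1, h2, h3, h4⟩
    exact ⟨RingSp.ofOld P, Oriented.ofOld o, GHom.ofOld φ, x, C, a, q, c,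
      (isBrownPeterson_iff _ _ _).2 h1, h2, (isQuotient_iff _ _ _ _).2 h3,
      (isPCompletion_iff _ _).2 h4⟩

theorem isGenMoore_iff (φ : GHom S p R) (j : ℕ) (V : T.C) :
    IsGenMoore φ j V ↔ StI.IsGenMoore φ.toOld j V := by
  constructor
  · intro h
    induction h with
    | base hi d => exact .base hi d
    | step _ hi e hf d ih =>
      refine .step ih hi (e.trans (by rw [vEl_eq])) (fun m y => (hf m y).trans ?_) d
      rw [mulBy_eq]
      rfl
  · intro h
    induction h with
    | base hi d => exact .base hi d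
    | step _ hi e hf d ih =>
      refine .step ih hi (e.trans (by rw [vEl_eq])) (fun m y => (hf m y).trans ?_) d
      rw [mulBy_eq]
      rfl

theorem isFpType_iff (S : Susp T) (p n : ℕ) (X : T.C) :
    IsFpType S p n X ↔ StI.IsFpType S p n X := by
  refine and_congr (pComplete_iff _ _) (and_congr (boundedBelow_iff _) ⟨?_, ?_⟩)
  · rintro ⟨P, o, φ, V, h1, h2, N, h3⟩
    exact ⟨P.toOld, o.toOld, φ.toOld, V, N, (isBrownPeterson_iff _ _ _).1 h1,
      (isGenMoore_iff _ _ _).1 h2, fun k => ⟨(h3 k).1, fun hk => (sub_iff _ _).1 ((h3 k).2 hk)⟩⟩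
  · rintro ⟨P, o, φ, V, N, h1, h2, h3⟩
    exact ⟨RingSp.ofOld P, Oriented.ofOld o, GHom.ofOld φ, V, (isBrownPeterson_iff _ _ _).2 h1,
      (isGenMoore_iff _ _ _).2 h2, N,
      fun k => ⟨(h3 k).1, fun hk => (sub_iff _ _).2 ((h3 k).2 hk)⟩⟩

/-- The old form of the counterexample gives the new one. -/
theorem of_old {n : ℕ} (h : (∃ B : T.C, StI.IsStandardForm S p n B) ∧ ∃ X : T.C,
      StI.IsFpType S p n X ∧
        ∀ B : T.C, StI.IsStandardForm S p n B → ¬ StI.ThickOf (fun Y => Y = B) X) :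
    (∃ B : T.C, IsStandardForm S p n B) ∧ ∃ X : T.C, IsFpType S p n X ∧
      ∀ B : T.C, IsStandardForm S p n B → ¬ Thick B X := by
  simpa only [isStandardForm_iff, isFpType_iff, thick_iff] using h

end Vale.Agent.P251CY.F
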