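import Vale.Agent.P221X.Fin.Full
import Vale.Agent.P221CY.Br
import Vale.Agent.P251CX.Top

/-!
# P221: the counterexample over the compact statement layer
-/

namespace Vale.Agent.P251CY.F

open Vale.Agent.P251.St

theorem fails (T : SHCat) (S : Susp T) :
    (¬ ∀ (p n : ℕ) (B : T.C), p.Prime → IsStandardForm S p n B →
      ∀ X : T.C, IsFpType S p n X ↔ Thick B X) ∧
    ∀ p : ℕ, p.Prime → 5 ≤ p → (∃ B : T.C, IsStandardForm S p 2 B) ∧
      ∃ X : T.C, IsFpType S p 2 X ∧ ∀ B : T.C, IsStandardForm S p 2 B → ¬ Thick B X :=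
  ⟨fun h =>
    (of_old (Vale.Agent.P221X.Fin.full (S := S) Nat.prime_five le_rfl)).elim fun hB hX =>
      hB.elim fun B hB => hX.elim fun X hX =>
        hX.2 B hB ((h 5 2 B Nat.prime_five hB X).1 hX.1),
    fun _ hp h5 => of_old (Vale.Agent.P221X.Fin.full hp h5)⟩

end Vale.Agent.P251CY.F
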