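import Vale.Agent.P251CY.Lay

/-!
# P221, statement layer (compact form): standard forms of `BP⟨n⟩` and fp-spectra

The same definitions as in `P257/H80/StBP.lean` and `P221/St/IntA.lean`, written with the short
auxiliary names of `P251CY/Lay.lean`.
-/

open CategoryTheory MonoidalCategory

noncomputable section

namespace Vale.Agent.P251CY.F

open Vale.Agent.P251.St Vale.Agent.P251.St.SHCat

variable {T : SHCat} {S : Susp T} {R : RingSp T} {p : ℕ}

/-! ### The Brown-Peterson spectrum -/

/-- `R`, with the complex orientation `o` and the homomorphism `φ : ℤ[v_1, v_2, …] → π_* R`, is the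
Brown-Peterson spectrum at `p`: it is the initial `p`-local commutative ring spectrum with a
`p`-typical complex orientation (the maps are the homomorphisms of ring spectra which carry the Thom
classes to the Thom classes). The elements `φ v_i` of `π_{2(p^i-1)} R` are the Hazewinkel
generators. -/
structure IsBrownPeterson (p : ℕ) (o : Oriented S R) (φ : GHom S p R) : Prop where
  typ : IsPTyp p o φ
  univ : ∀ (R' : RingSp T) (o' : Oriented S R') (φ' : GHom S p R'),
    IsPTyp p o' φ' → ∃! f : Hom R.obj R'.obj, IsMonHom f ∧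
      ∀ (n : ℕ) (A : Type) [Fintype A], comp (o.θ n A) (tenR f _) = o'.θ n A

/-! ### Thick subcategories, completion -/

/-- `π_k X` -/
abbrev Pi (k : ℤ) (X : T.C) : Type := Hom (sphere T k) X

/-- the `k`-fold suspension -/
abbrev suspn (k : ℤ) (X : T.C) : T.C := X⟦k⟧

/-- `Thick B` is the thick subcategory generated by `B`: the smallest class of spectra which
contains `B` and is closed under suspensions (of all integer degrees), cofiber sequences and
retracts (hence it contains `0` and is closed under isomorphisms and finite sums). -/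
inductive Thick (B : T.C) : T.C → Prop
  | base : Thick B B
  | susp (k : ℤ) {X} : Thick B X → Thick B (suspn k X)
  | cof {X Y Z} {f : Hom X Y} {g : Hom Y Z} {h} : Dist f g h → Thick B X → Thick B Y → Thick B Z
  | retract {X Y} (i : Hom X Y) (r : Hom Y X) : comp i r = ident X → Thick B Y → Thick B X

/-- `X` is `p`-complete: there are no nonzero maps `W ⟶ X` if `p` is invertible on `W`. -/
def PComplete (p : ℕ) (X : T.C) : Prop :=
  ∀ W : T.C, IsIso (zmul p (ident W)) → Subsingleton (Hom W X)

/-- `c : X ⟶ Y` is the `p`-completion of `X`. -/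
def IsPCompletion (p : ℕ) {X Y : T.C} (c : Hom X Y) : Prop :=
  PComplete p Y ∧ ∀ Z, PComplete p Z → ∀ f : Hom X Z, ∃! g : Hom Y Z, comp c g = f

/-- `π_k X = 0` for all small `k`. -/
def BoundedBelow (X : T.C) : Prop := ∃ N : ℤ, ∀ k < N, Subsingleton (Pi k X)

/-! ### Standard forms -/

/-- `a : R ⊗ X ⟶ X` makes `X` a homotopy `R`-module. -/
def IsAct {X : T.C} (a : Hom (ten R.obj X) X) : Prop :=
  comp (tenR R.unit X) a = leftUnit X ∧ comp (lact R X) a = comp (tenL R.obj a) a

/-- `x ∈ π_{2k} R` (used for `k = p^j-1`) is a polynomial generator: up to a factor prime to `p` it is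
the value of a polynomial `w ∈ ℤ[v_1, v_2, …]` of degree `2k` in which the coefficient of `v_j` is prime
to `p`. (For `R = BP`, where `π_* R = ℤ_(p)[v_1, v_2, …]`, this means that `x` is the product of a
unit with `v_j`, modulo decomposable elements.) -/
def IsPolyGen (φ : GHom S p R) (j : ℕ) {k : ℕ} (x : PiR S R k) : Prop :=
  ∃ (m : ℤ) (w : VPoly p k), ¬ (p : ℤ) ∣ m ∧
    ¬ (p : ℤ) ∣ MvPolynomial.coeff (Finsupp.single (j - 1) 1) w.pol ∧ zmul m x = φ.val w

/-- the multiplication `R ⊗ S^{2k} ⟶ R` by `x ∈ π_{2k} R` -/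
def mulBy {k : ℕ} (x : PiR S R k) : Hom (ten R.obj (Sn S k)) R.obj := comp (tenL R.obj x) R.mul

/-- `q : R ⟶ C` is the quotient of `R` by the elements `x_{n+1}, x_{n+2}, …` of its homotopy, as a
homotopy `R`-module: it is `R`-linear and onto on homotopy, and the kernel of `π_* q` consists of
the finite sums of products `b_j x_j`, `j > n`. -/
structure IsQuotient (n : ℕ) {d : ℕ → ℕ} (x : ∀ j, PiR S R (d j)) {C : T.C}
    (a : Hom (ten R.obj C) C) (q : Hom R.obj C) : Prop where
  act : IsAct a
  map : comp R.mul q = comp (tenL R.obj q) a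
  surj : ∀ k (y : Pi k C), ∃ u, comp u q = y
  ker : ∀ k (u : Pi k R.obj), comp u q = nul _ C ↔
    ∃ (N : ℕ) (b : ∀ j, Pi k (ten R.obj (Sn S (d j)))),
      u = ∑ j ∈ Finset.Ioc n N, comp (b j) (mulBy (x j))

/-- `B` is a standard form of `BP⟨n⟩_p`: the `p`-completion of the quotient of the Brown-Peterson
spectrum by polynomial generators `x_j` of degree `2(p^j-1)`, `j > n`. -/
def IsStandardForm (S : Susp T) (p n : ℕ) (B : T.C) : Prop :=
  ∃ (P : RingSp T) (o : Oriented S P) (φ : GHom S p P) (x : ∀ j : ℕ, PiR S P (p ^ j - 1))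
    (C : T.C) (a : Hom (ten P.obj C) C) (q : Hom P.obj C) (c : Hom C B),
    IsBrownPeterson p o φ ∧ (∀ j, n < j → IsPolyGen φ j (x j)) ∧ IsQuotient n x a q ∧
      IsPCompletion p c

/-! ### fp-spectra -/

/-- The self map `f : Σ^{2k} V ⟶ V` induces the multiplication by `x ∈ π_{2k} R` on `R_* V`: the
maps `R ⊗ S^{2k} ⊗ V ⟶ R ⊗ V` given by `f` and by `x` are equal on homotopy groups. -/
def Induces {k : ℕ} {V : T.C} (f : Hom (ten (Sn S k) V) V) (x : PiR S R k) : Prop :=
  ∀ m (y : Pi m _), comp y (tenL R.obj f) =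
    comp y (comp (assocInv R.obj (Sn S k) V) (tenR (mulBy x) V))

/-- `V` is a generalised Moore spectrum of type `j ≥ 1`: there are `V_1, …, V_j = V`, where `V_1` is
the cofibre of `p ^ i_0` on the sphere spectrum, `i_0 > 0`, and `V_{l+1}` is the cofibre of a self
map `f : Σ^{2k} V_l ⟶ V_l` which induces the multiplication by `v_l ^ i_l` on `R_* V_l`, `i_l > 0`.
(Here `R = BP`, and `v_l = φ (v_l)` are the Hazewinkel generators.) -/
inductive IsGenMoore (φ : GHom S p R) : ℕ → T.C → Prop
  | base {i : ℕ} {V} {g : Hom T.one V} {h} :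
      0 < i → Dist (zmul ((p : ℤ) ^ i) (ident T.one)) g h → IsGenMoore φ 1 V
  | step {j k i : ℕ} {V W} {f : Hom (ten (Sn S k) V) V} {g : Hom V W} {h} {w : VPoly p k} :
      IsGenMoore φ j V → 0 < i → w.pol = vEl p j ^ i → Induces f (φ.val w) → Dist f g h →
        IsGenMoore φ (j + 1) W

/-- `π_* Y` is finite in total: finitely many nonzero homotopy groups, each finite. -/
def FinTotal (Y : T.C) : Prop :=
  ∃ N : ℤ, ∀ k, Finite (Pi k Y) ∧ (N < |k| → Subsingleton (Pi k Y))

/-- `X` is an fp-spectrum of fp-type at most `n`: it is `p`-complete and bounded below, and there is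
a generalised Moore spectrum `V` of type `n + 1` such that `π_* (X ⊗ V)` is finite. (By the thick
subcategory theorem and the periodicity theorem this holds for some finite `p`-local spectrum `V` of
type `n + 1` if and only if it holds for all of them, and generalised Moore spectra exist.) -/
def IsFpType (S : Susp T) (p n : ℕ) (X : T.C) : Prop :=
  PComplete p X ∧ BoundedBelow X ∧
    ∃ (P : RingSp T) (o : Oriented S P) (φ : GHom S p P) (V : T.C),
      IsBrownPeterson p o φ ∧ IsGenMoore φ (n + 1) V ∧ FinTotal (ten X V)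

end Vale.Agent.P251CY.F
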